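import Vale.Agent.P286EG.Ag2

/-!
# Derived base change: push-out squares, composition, flat base change
-/

namespace Vale.Agent.P286EG

open Vale.Agent.P286 Vale.Agent.P286.H847 TensorProduct

noncomputable section

variable {A B D A' B' : Type} [CommRing A] [CommRing B] [CommRing D] [CommRing A'] [CommRing B']

/-- Restriction of scalars. -/
def Rs (_ : A →+* A') (P : Type) : Type := P

/-- The additive group. -/
local instance instAddCommGroupRs (a : A →+* A') (P : Type) [AddCommGroup P] : AddCommGroup (Rs a P) := ‹_›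

/-- The module. -/
local instance instModuleRs (a : A →+* A') (P : Type) [AddCommGroup P] [Module A' P] :
    Module A (Rs a P) :=
  Module.compHom P a

/-- A push-out square `B' = B ⊗_A A'` with `A'` flat over `A`. -/
structure PO (f : A →+* B) (a : A →+* A') (b : B →+* B') (f' : A' →+* B') : Prop where
  comm : ∀ x, f' (a x) = b (f x)
  flat : a.Flat
  iso : ∀ (P : Type) [AddCommGroup P] [Module A' P], ∃ e : ExtS f (Rs a P) ≃+ ExtS f' P,
    ∀ β (x : P), e (ExtS.el f β (x : Rs a P)) = ExtS.el f' (b β) x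

theorem PO.of_alg {f : A →+* B} {a : A →+* A'} {b : B →+* B'} {f' : A' →+* B'}
    (h : ∀ x, f' (a x) = b (f x)) (ha : a.Flat)
    (H : letI := f.toAlgebra; letI := a.toAlgebra; letI := b.toAlgebra; letI := f'.toAlgebra
      letI := (b.comp f).toAlgebra
      haveI : IsScalarTower A B B' := .of_algebraMap_eq fun _ => rfl
      haveI : IsScalarTower A A' B' := .of_algebraMap_eq fun x => (h x).symm
      Algebra.IsPushout A B A' B') : PO f a b f' := by
  refine ⟨h, ha, fun P _ _ => ?_⟩
  let _ := f.toAlgebra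
  let _ := a.toAlgebra
  let _ := b.toAlgebra
  let _ := f'.toAlgebra
  let _ := (b.comp f).toAlgebra
  have : IsScalarTower A B B' := .of_algebraMap_eq fun _ => rfl
  have : IsScalarTower A A' B' := .of_algebraMap_eq fun x => (h x).symm
  let _ : Module A P := Module.compHom P a
  have : IsScalarTower A A' P := .of_compHom A A' P
  exact ⟨(Algebra.IsPushout.cancelBaseChange A B A' B' P).symm.toAddEquiv,
    Algebra.IsPushout.cancelBaseChange_symm_tmul A B A' B' P⟩

theorem PO.of_inst [i₁ : Algebra A B] [i₂ : Algebra A A'] [i₃ : Algebra B B'] [i₄ : Algebra A' B']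
    [i₅ : Algebra A B'] [IsScalarTower A B B'] [IsScalarTower A A' B'] [Module.Flat A A']
    [H : Algebra.IsPushout A B A' B'] :
    PO (algebraMap A B) (algebraMap A A') (algebraMap B B') (algebraMap A' B') := by
  refine PO.of_alg (fun x => by rw [← IsScalarTower.algebraMap_apply,
    ← IsScalarTower.algebraMap_apply]) (RingHom.flat_algebraMap_iff.2 ‹_›) ?_
  convert H using 1
  all_goals first
    | exact toAlgebra_algebraMap
    | exact (congrArg RingHom.toAlgebra (IsScalarTower.algebraMap_eq A B B').symm).trans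
        toAlgebra_algebraMap

/-- Localizations. -/
theorem PO.away {f : A →+* B} {f' : A' →+* B'} [Algebra A A'] [Algebra B B'] (θ : A)
    [IsLocalization.Away θ A'] [H : IsLocalization.Away (f θ) B']
    (h : ∀ x, f' (algebraMap A A' x) = algebraMap B B' (f x)) :
    PO f (algebraMap A A') (algebraMap B B') f' := by
  let _ := f.toAlgebra
  let _ := f'.toAlgebra
  let _ := ((algebraMap B B').comp f).toAlgebra
  have : IsScalarTower A B B' := .of_algebraMap_eq fun _ => rfl
  have : IsScalarTower A A' B' := .of_algebraMap_eq fun x => (h x).symm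
  have : IsLocalization (Algebra.algebraMapSubmonoid B (Submonoid.powers θ)) B' := by
    rwa [Algebra.algebraMapSubmonoid_powers]
  have := Algebra.isPushout_of_isLocalization (Submonoid.powers θ) A' B B'
  have := IsLocalization.flat A' (Submonoid.powers θ)
  exact PO.of_inst

/-- Restriction of scalars. -/
abbrev mres (a : A →+* A') (P : MCx A') : MCx A where
  X i := Rs a (P.X i)
  d i j := ⟨⟨P.d i j, map_add _⟩, fun c x => (P.d i j).map_smul (a c) x⟩
  dd i j k := LinearMap.ext (P.dd_apply i j k)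

theorem flat_rs {a : A →+* A'} (ha : a.Flat) (P : Type) [AddCommGroup P] [Module A' P]
    [Module.Flat A' P] : Module.Flat A (Rs a P) := by
  let _ := a.toAlgebra
  let _ : Module A P := Module.compHom P a
  have : IsScalarTower A A' P := .of_compHom A A' P
  have : Module.Flat A A' := ha
  exact Module.Flat.trans A A' P

/-- **Push-out squares.** -/
theorem DB.push [Algebra ℂ A] [Algebra.Smooth ℂ A] [Algebra ℂ A'] {f : A →+* B} {a : A →+* A'}
    {b : B →+* B'} {f' : A' →+* B'} (H : PO f a b f') {M : AG A'} {N : AG B'}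
    {t : GD.Hom M.G N.G} (h : DB f' M N t) : DB f (M.res a) (N.res b) t := by
  obtain ⟨P, p, h1, -, h2⟩ := exists_res M.mc
  choose e he using fun i => H.iso (P.X i)
  have hs : Sl f (M.res a) (N.res b) t := fun c x => (h.1 _ x).trans (by rw [H.comm]; rfl)
  let p' : MHom (mres a P) (M.res a).mc :=
    ⟨fun i => ⟨⟨p.f i, map_add _⟩, fun c x => (p.f i).map_smul (a c) x⟩, p.comm⟩
  let E : AH (bcx f (mres a P)) (bcx f' P) := ⟨fun i => (e i).toAddMonoidHom, fun i j _ =>
    bc_ext (u := (e j).toAddMonoidHom.comp ((bcx f (mres a P)).d i j).toAddMonoidHom)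
      (v := ((bcx f' P).d i j).toAddMonoidHom.comp (e i).toAddMonoidHom) fun β x =>
      (he j β _).trans (congrArg ((bcx f' P).d i j) (he i β x)).symm⟩
  have q := (h.2 P p h1 h2).comp (AH.Qis.of_bij E fun i => (e i).bijective)
  refine DB.of hs p' (fun i => have := h1 i; flat_rs H.flat (P.X i)) h2 fun i j k hi hj => ?_
  rw [show ((bm _ (hs.sl.comp p')).f j : _ → _) = ((bm _ (h.1.sl.comp p)).comp E).f j from
    funext (bc_ext (v := ((bm _ (h.1.sl.comp p)).comp E).f j) fun β x =>
      (congrArg ((bm _ (h.1.sl.comp p)).f j) (he j β x)).symm)]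
  exact q i j k hi hj

variable {M : AG A} {N : AG B} {R : AG D} {f : A →+* B} {g : B →+* D}
  {t : GD.Hom M.G N.G} {t' : GD.Hom N.G R.G}

/-- The base change, as a complex of `B`-modules. -/
def bcB (f : A →+* B) (P : MCx A) : MCx B :=
  letI := f.toAlgebra
  { X := fun i => B ⊗[A] P.X i
    d := fun i j => (P.d i j).baseChange B
    dd := fun i j k => by rw [← LinearMap.baseChange_comp, P.dd, LinearMap.baseChange_zero] }

/-- The map from the base change. -/
def bmB {P : MCx A} {L : MCx B} (t : AH P L) (ht : SL f t) : MHom (bcB f P) L :=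
  ⟨fun i => ⟨⟨(bm t ht).f i, map_add _⟩, fun c x => by
    let _ := f.toAlgebra
    exact bc_ext (u := ((bm t ht).f i).comp (DistribSMul.toAddMonoidHom (B ⊗[A] P.X i) c))
      (v := (DistribSMul.toAddMonoidHom _ c).comp ((bm t ht).f i))
      (fun b x => mul_smul c b (t.f i x)) x⟩, (bm t ht).comm⟩

theorem comp_iff (ht : Sl f M N t) (ht' : Sl g N R t') {P : MCx A} (p : MHom P M.mc) :
    (bm _ (ht'.sl.comp (bmB _ (ht.sl.comp p)))).Qis ↔ (bm _ ((ht'.comp ht).sl.comp p)).Qis := by
  let _ := f.toAlgebra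
  let _ := g.toAlgebra
  let _ := (g.comp f).toAlgebra
  have : IsScalarTower A B D := .of_algebraMap_eq fun _ => rfl
  let e := fun i => (AlgebraTensorModule.cancelBaseChange A B D D (P.X i)).symm
  let E : AH (bcx (g.comp f) P) (bcx g (bcB f P)) :=
    ⟨fun i => (e i).toAddEquiv.toAddMonoidHom, fun i j _ =>
      bc_ext (u := (e j).toAddEquiv.toAddMonoidHom.comp ((bcx (g.comp f) P).d i j).toAddMonoidHom)
        (v := ((bcx g (bcB f P)).d i j).toAddMonoidHom.comp (e i).toAddEquiv.toAddMonoidHom)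
        fun _ _ => rfl⟩
  have q : E.Qis := AH.Qis.of_bij E fun i => (e i).bijective
  have h : ∀ i x, ((bm _ (ht'.sl.comp (bmB _ (ht.sl.comp p)))).comp E).f i x =
      (bm _ ((ht'.comp ht).sl.comp p)).f i x := fun i => bc_ext fun c x =>
    congrArg (fun y => c • (ah N R t').f i y) (one_smul B _)
  exact ⟨fun h1 => (h1.comp q).congr h, fun h1 => q.right (h1.congr fun i x => (h i x).symm)⟩

theorem flat_bcB (f : A →+* B) {P : MCx A} (h : ∀ i, Module.Flat A (P.X i)) (i : ℤ) :
    Module.Flat B ((bcB f P).X i) :=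
  letI := f.toAlgebra
  haveI := h i
  Module.Flat.baseChange A B (P.X i)

/-- Composition. -/
theorem DB.comp (h' : DB g N R t') (h : DB f M N t) : DB (g.comp f) M R (t'.comp t) :=
  ⟨h'.1.comp h.1, fun P p h1 h2 => (comp_iff h.1 h'.1 p).1
    (h'.2 _ (bmB _ (h.1.sl.comp p)) (flat_bcB f h1) (h.2 P p h1 h2))⟩

/-- Cancellation. -/
theorem DB.cancel [Algebra ℂ A] [Algebra ℂ B] [Algebra.Smooth ℂ B] (h : DB f M N t)
    (ht' : Sl g N R t') (h' : DB (g.comp f) M R (t'.comp t)) : DB g N R t' := by
  obtain ⟨P, p, h1, -, h2⟩ := exists_res M.mc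
  exact DB.of ht' (bmB _ (h.1.sl.comp p)) (flat_bcB f h1) (h.2 P p h1 h2)
    ((comp_iff h.1 ht' p).2 (h'.2 P p h1 h2))

theorem DB.congr {f' : A →+* B} {s : GD.Hom M.G N.G} (h : DB f M N t) (e : ∀ a, f a = f' a)
    (e' : ∀ x, t.f x = s.f x) : DB f' M N s := by
  obtain rfl : f = f' := RingHom.ext e
  obtain rfl : t = s := by
    cases t
    cases s
    congr
    exact LinearMap.ext e'
  exact h

theorem lTensor_qis {P Q : MCx A} (u : MHom P Q) (h : u.a.Qis) (V : Type) [AddCommGroup V]
    [Module A V] [Module.Flat A V] : (u.tens V).a.Qis := by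
  refine ((u.tens V).a.qis_iff (C := (cone u).tens V)
    (fun i => (prodRight A A V (Q.X i) (P.X (i + 1))).toAddEquiv) (tens_cone u V)).2 ?_
  intro i j k hi hj z hz
  exact (Module.Flat.lTensor_exact V (f := (cone u).d i j) (g := (cone u).d j k) (fun x =>
    ⟨(qis_cone u).1 h i j k hi hj x, by rintro ⟨y, rfl⟩; exact MCx.dd_apply _ _ _ _ y⟩) z).1 hz

/-- **Flat base change.** -/
theorem db_flat [Algebra ℂ A] (hf : f.Flat) (ht : Sl f M N t) :
    DB f M N t ↔ (bm _ ht.sl).Qis := by
  have key : ∀ (P : MCx A) (p : MHom P M.mc), p.a.Qis →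
      ((bm _ (ht.sl.comp p)).Qis ↔ (bm _ ht.sl).Qis) := by
    intro P p hp
    have h1 : (bcm f p).Qis :=
      letI := f.toAlgebra
      haveI : Module.Flat A B := hf
      lTensor_qis p hp B
    have e : ∀ i x, ((bm _ ht.sl).comp (bcm f p)).f i x = (bm _ (ht.sl.comp p)).f i x :=
      fun i => bc_ext fun _ _ => rfl
    exact ⟨fun h2 => h1.right (h2.congr fun i x => (e i x).symm), fun h2 => (h2.comp h1).congr e⟩
  refine ⟨fun h => ?_, fun h => ⟨ht, fun P p _ hp => (key P p hp).2 h⟩⟩
  obtain ⟨P, p, h1, -, h2⟩ := exists_res M.mc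
  exact (key P p h2).1 (h.2 P p h1 h2)

/-- Base change along an isomorphism. -/
theorem db_bij [Algebra ℂ A] (hf : Function.Bijective f) (ht : Sl f M N t) :
    DB f M N t ↔ GD.Qis t := by
  let _ := f.toAlgebra
  let e : A ≃ₗ[A] B := LinearEquiv.ofBijective (Algebra.linearMap A B) hf
  let e' := fun i => (TensorProduct.lid A (M.T i)).symm.trans (e.rTensor (M.T i))
  let E : AH M.mc (bcx f M.mc) := ⟨fun i => (e' i).toAddEquiv.toAddMonoidHom, fun _ _ _ _ => rfl⟩
  have q : E.Qis := AH.Qis.of_bij E fun i => (e' i).bijective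
  have h : ∀ i x, ((bm _ ht.sl).comp E).f i x = (ah M N t).f i x := fun i x =>
    (congrArg (· • (ah M N t).f i x) (map_one f)).trans (one_smul _ _)
  rw [db_flat (RingHom.Flat.of_bijective hf) ht, ← ah_qis]
  exact ⟨fun h1 => (h1.comp q).congr h, fun h1 => q.right (h1.congr fun i x => (h i x).symm)⟩

end

end Vale.Agent.P286EG
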