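import Vale.Agent.P286EG.Ag3
import Vale.Agent.P286.H847.BrgD

/-!
# Cartesian families
-/

namespace Vale.Agent.P286EG

open Vale.Agent.P286 Vale.Agent.P286.H847 Vale.Agent.P286.St Vale.Agent.P286.H353 CategoryTheory

noncomputable section

variable {T T' : TSite}

/-- The action of the functions. -/
def fnH (F : GTD T) (X : T.C) : T.R X →+* Module.End ℂ (F.F X).V where
  toFun := F.fn X
  map_one' := LinearMap.ext fun x => by
    have h := (F.dmod X).const 1 x
    rwa [map_one, one_smul] at h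
  map_mul' a b := LinearMap.ext ((F.dmod X).fn_mul a b)
  map_zero' := LinearMap.ext fun x => by
    have h := (F.dmod X).const 0 x
    rwa [map_zero, zero_smul] at h
  map_add' a b := LinearMap.ext ((F.dmod X).fn_add a b)

/-- The sections over a test object. -/
abbrev ag (F : GTD T) (X : T.C) : AG (T.R X) := ⟨F.F X, fnH F X, F.fn_gr X, F.fn_d X⟩

theorem sl_tr (F : GTD T) {X Y : T.C} (φ : X ⟶ Y) : Sl (T.f φ).r (ag F X) (ag F Y) (F.tr φ) :=
  (F.trans X Y φ).fn

/-- The family is cartesian. -/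
def GC (F : GTD T) : Prop := Cx.Cart (GTD.toCx F)

theorem dS_eq (F : GTD T) (X : T.C) (i j : ℤ) : (GTD.toCx F).d X i j = (ag F X).dT i j := by
  funext x
  by_cases h : i + 1 = j
  · exact F.val_inj ((GTD.val_dS F X i j h x).trans ((ag F X).val_d h x).symm)
  · have h1 : (GTD.cc F).d i j = 0 := dif_neg h
    refine Eq.trans ?_ (AG.gd_ne _ h x).symm
    change TD.hm (M := F.term i) (N := F.term j) ((GTD.cc F).d i j) X x = 0
    rw [h1]
    rfl

/-- **Cartesian families.** -/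
theorem gc_iff (F : GTD T) :
    GC F ↔ ∀ (X Y : T.C) (φ : X ⟶ Y), DB (T.f φ).r (ag F X) (ag F Y) (F.tr φ) := by
  constructor
  · intro h X Y φ
    obtain ⟨P, p, hp, hq⟩ := h X
    obtain ⟨q, hq⟩ := hq Y φ
    let p' : MHom P (ag F X).mc := ⟨fun i => ⟨⟨p i, hp.add i⟩, hp.hom i⟩, fun i j _ x =>
      (hp.comm i j x).trans (congrFun (dS_eq F X i j) _)⟩
    refine DB.of (sl_tr F φ) p' hp.flat (fun i j k hi hj => ?_) fun i j k hi hj => ?_
    · have h1 := hp.hiso i j k hi hj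
      rw [dS_eq, dS_eq] at h1
      exact h1
    · have h1 := hq.hiso i j k hi hj
      rw [dS_eq, dS_eq, ← Br.lift_eq (T.f φ).r (N := (ag F Y).T j) _
        (((sl_tr F φ).sl.comp p') j) (q j) (hq.add j) (hq.el j)] at h1
      exact h1
  · intro h X
    obtain ⟨P, p, h1, h2, h3⟩ := exists_res (ag F X).mc
    refine ⟨P, fun i => p.f i, ⟨h1, fun i => map_add (p.f i), fun i => (p.f i).map_smul,
      fun i j x => ?_, fun i j k hi hj => ?_⟩, fun Y φ =>
      ⟨fun i => (bm _ ((sl_tr F φ).sl.comp p)).f i, fun i => map_add _, fun _ _ _ => rfl,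
        fun i j k hi hj => ?_⟩⟩
    · rw [dS_eq]
      by_cases h : i + 1 = j
      · exact p.comm i j h x
      · rw [AG.dT_ne _ h, df, h2 i j h]
        exact map_zero (p.f j)
    · rw [dS_eq, dS_eq]
      exact h3 i j k hi hj
    · rw [dS_eq, dS_eq]
      exact (h X Y φ).2 P p h1 h3 i j k hi hj

theorem GC.db {F : GTD T} (h : GC F) {X Y : T.C} (φ : X ⟶ Y) :
    DB (T.f φ).r (ag F X) (ag F Y) (F.tr φ) := (gc_iff F).1 h X Y φ

/-- Transition maps along isomorphisms of algebras are quasi-isomorphisms. -/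
theorem GC.qis_tr {F : GTD T} (h : GC F) {X Y : T.C} (φ : X ⟶ Y)
    (hφ : Function.Bijective (T.f φ)) : GD.Qis (F.tr φ) :=
  (db_bij hφ (sl_tr F φ)).1 (h.db φ)

/-- The source of a quasi-isomorphism to a cartesian family is cartesian. -/
theorem GC.rev {F G : GTD T} (h : GC G) (u : ∀ X, GD.Hom (F.F X) (G.F X))
    (fn : ∀ X a x, (u X).f (F.fn X a x) = G.fn X a ((u X).f x))
    (tr : ∀ {X Y : T.C} (φ : X ⟶ Y) x, (u Y).f ((F.tr φ).f x) = (G.tr φ).f ((u X).f x))
    (q : ∀ X, GD.Qis (u X)) : GC F :=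
  (gc_iff F).2 fun X Y φ => (h.db φ).rev (sl_tr F φ) (fn X) (fn Y) (q X) (q Y) (tr φ)

/-- The target of a quasi-isomorphism from a cartesian family is cartesian. -/
theorem GC.fwd {F G : GTD T} (h : GC F) (u : ∀ X, GD.Hom (F.F X) (G.F X))
    (fn : ∀ X a x, (u X).f (F.fn X a x) = G.fn X a ((u X).f x))
    (tr : ∀ {X Y : T.C} (φ : X ⟶ Y) x, (u Y).f ((F.tr φ).f x) = (G.tr φ).f ((u X).f x))
    (q : ∀ X, GD.Qis (u X)) : GC G :=
  (gc_iff G).2 fun X Y φ => (h.db φ).fwd (sl_tr G φ) (fn X) (fn Y) (q X) (q Y) (tr φ)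

/-- A map of cartesian families which is a quasi-isomorphism at `X` is one at `Y`. -/
theorem GC.qis {F G : GTD T} (h : GC F) (h' : GC G) (u : ∀ X, GD.Hom (F.F X) (G.F X))
    (fn : ∀ X a x, (u X).f (F.fn X a x) = G.fn X a ((u X).f x))
    (tr : ∀ {X Y : T.C} (φ : X ⟶ Y) x, (u Y).f ((F.tr φ).f x) = (G.tr φ).f ((u X).f x))
    {X Y : T.C} (φ : X ⟶ Y) (q : GD.Qis (u X)) : GD.Qis (u Y) :=
  (h.db φ).qis (h'.db φ) (fn X) (fn Y) q (tr φ)

/-- The DG category of cartesian families. -/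
def gcc (T : TSite) : DGC.{1, 1} := (gtc T).full GC

/-- The quasi-isomorphisms of cartesian families. -/
def gcq (T : TSite) : MorphismProperty (Z0 (gcc T)) := fun _ _ a =>
  gqis T (zup (C := gtc T) (P := GC) a)

end

end Vale.Agent.P286EG
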