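import Vale.Agent.P286EG.IF
import Vale.Agent.P286.H527.HIsoL
import Vale.Agent.P286.H527.BrCart

/-!
# Additive morphisms of complexes, cones, derived base change
-/

namespace Vale.Agent.P286EG

open Vale.Agent.P286 TensorProduct

noncomputable section

variable {A B D : Type} [CommRing A] [CommRing B] [CommRing D]

/-- An additive morphism of complexes. -/
structure AH (P : MCx A) (Q : MCx B) where
  f : ∀ i, P.X i →+ Q.X i
  comm : ∀ i j, i + 1 = j → ∀ x, f j (P.d i j x) = Q.d i j (f i x)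

/-- The additive morphism defined by a morphism. -/
def MHom.a {P Q : MCx A} (u : MHom P Q) : AH P Q := ⟨fun i => (u.f i).toAddMonoidHom, u.comm⟩

/-- The composition. -/
def MHom.comp {P Q R : MCx A} (v : MHom Q R) (u : MHom P Q) : MHom P R :=
  ⟨fun i => (v.f i).comp (u.f i), fun i j h x => by
    rw [LinearMap.comp_apply, u.comm i j h, v.comm i j h, LinearMap.comp_apply]⟩

namespace AH

variable {P : MCx A} {Q : MCx B} {R : MCx D}

/-- The morphism is a quasi-isomorphism. -/
def Qis (u : AH P Q) : Prop :=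
  ∀ i j k, i + 1 = j → j + 1 = k → St.HIso (P.d i j) (P.d j k) (Q.d i j) (Q.d j k) (u.f j)

/-- The composition. -/
def comp (v : AH Q R) (u : AH P Q) : AH P R :=
  ⟨fun i => (v.f i).comp (u.f i), fun i j h x => by
    rw [AddMonoidHom.comp_apply, u.comm i j h, v.comm i j h, AddMonoidHom.comp_apply]⟩

theorem Qis.congr {u v : AH P Q} (h : u.Qis) (e : ∀ i x, u.f i x = v.f i x) : v.Qis := by
  intro i j k hi hj
  rw [show (v.f j : P.X j → Q.X j) = u.f j from funext fun x => (e j x).symm]
  exact h i j k hi hj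

theorem Qis.comp {v : AH Q R} {u : AH P Q} (hv : v.Qis) (hu : u.Qis) : (v.comp u).Qis :=
  fun i j k hi hj => HIso.comp (d₁ := (P.d i j).toAddMonoidHom) (d₂ := (P.d j k).toAddMonoidHom)
    (e₁ := (Q.d i j).toAddMonoidHom) (e₂ := (Q.d j k).toAddMonoidHom)
    (f₁ := (R.d i j).toAddMonoidHom) (f₂ := (R.d j k).toAddMonoidHom) (hu i j k hi hj)
    (hv i j k hi hj) (u.f k) (fun x => (u.comm j k hj x).symm) (v.f i)
    fun y => (v.comm i j hi y).symm

theorem Qis.right {v : AH Q R} {u : AH P Q} (hu : u.Qis) (h : (v.comp u).Qis) : v.Qis :=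
  fun i j k hi hj => HIso.of_comp (d₁ := (P.d i j).toAddMonoidHom)
    (d₂ := (P.d j k).toAddMonoidHom)
    (e₁ := (Q.d i j).toAddMonoidHom) (e₂ := (Q.d j k).toAddMonoidHom)
    (f₁ := (R.d i j).toAddMonoidHom) (f₂ := (R.d j k).toAddMonoidHom) (hu i j k hi hj)
    (h i j k hi hj) (u.f i) (fun x => (u.comm i j hi x).symm) (u.f k)
    (fun x => (u.comm j k hj x).symm) (v.f i) fun y => (v.comm i j hi y).symm

theorem Qis.left {v : AH Q R} {u : AH P Q} (hv : v.Qis) (h : (v.comp u).Qis) : u.Qis := by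
  intro i j k hi hj
  refine ⟨?_, fun y hy => ?_⟩
  · rintro x hx ⟨y, e⟩
    exact (h i j k hi hj).1 x hx ⟨v.f i y, by rw [← v.comm i j hi, e]; rfl⟩
  · obtain ⟨x, hx, z, e⟩ := (h i j k hi hj).2 (v.f j y) (by rw [← v.comm j k hj, hy, map_zero])
    obtain ⟨y', e'⟩ := (hv i j k hi hj).1 (y - u.f j x)
      (by rw [map_sub, hy, ← u.comm j k hj, hx, map_zero, sub_zero]) ⟨z, by rw [e, map_sub]; rfl⟩
    exact ⟨x, hx, y', e'⟩

theorem Qis.of_bij (u : AH P Q) (h : ∀ i, Function.Bijective (u.f i)) : u.Qis :=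
  fun i j k hi hj => HIso.of_bij (d₁ := (P.d i j).toAddMonoidHom) (d₂ := (P.d j k).toAddMonoidHom)
    (e₁ := (Q.d i j).toAddMonoidHom) (e₂ := (Q.d j k).toAddMonoidHom) (u.f i) (h i).2 (h j)
    (u.f k) (h k).1 (fun x => (u.comm i j hi x).symm) fun x => (u.comm j k hj x).symm

/-- A complex which looks like the cone. -/
theorem qis_iff {C : MCx D} (u : AH P Q) (e : ∀ i, C.X i ≃+ Q.X i × P.X (i + 1))
    (he : ∀ i x, e (i + 1) (C.d i (i + 1) x) =
      (Q.d i (i + 1) (e i x).1 + u.f (i + 1) (e i x).2, -P.d (i + 1) (i + 1 + 1) (e i x).2)) :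
    u.Qis ↔ C.Acyclic := by
  constructor
  · rintro h i _ _ rfl rfl z hz
    have h0 := he (i + 1) z
    rw [hz, map_zero] at h0
    have h1 := (congrArg Prod.fst h0).symm
    have h2 := neg_eq_zero.1 (congrArg Prod.snd h0).symm
    simp only [Prod.fst_zero] at h1
    obtain ⟨a, ea⟩ := (h (i + 1) _ _ rfl rfl).1 _ h2 ⟨-(e (i + 1) z).1, by
      rw [map_neg, neg_eq_iff_add_eq_zero, h1]⟩
    obtain ⟨b, hb, c, ec⟩ := (h i _ _ rfl rfl).2 ((e (i + 1) z).1 + u.f _ a) (by
      rw [map_add, ← u.comm _ _ rfl, ea, h1])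
    refine ⟨(e i).symm (c, b - a), (e (i + 1)).injective ?_⟩
    rw [he, AddEquiv.apply_symm_apply]
    refine Prod.ext ?_ ?_
    · simp [ec]
    · simp [hb, ea]
  · rintro h i _ _ rfl rfl
    refine ⟨?_, fun y hy => ?_⟩
    · rintro x hx ⟨y, ey⟩
      obtain ⟨i, rfl⟩ : ∃ l, i = l + 1 := ⟨i - 1, by ring⟩
      obtain ⟨z, ez⟩ := h i _ _ rfl rfl ((e (i + 1)).symm (-y, x)) ((e _).injective (by
        rw [he, AddEquiv.apply_symm_apply, map_zero]
        refine Prod.ext ?_ ?_
        · simp [ey]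
        · simp [hx]))
      have h1 := he i z
      rw [ez, AddEquiv.apply_symm_apply] at h1
      exact ⟨-(e i z).2, by rw [map_neg]; exact (congrArg Prod.snd h1).symm⟩
    · obtain ⟨z, ez⟩ := h i _ _ rfl rfl ((e (i + 1)).symm (y, 0)) ((e _).injective (by
        rw [he, AddEquiv.apply_symm_apply, map_zero]
        refine Prod.ext ?_ ?_
        · simp [hy]
        · simp))
      have h1 := he i z
      rw [ez, AddEquiv.apply_symm_apply] at h1
      exact ⟨(e i z).2, neg_eq_zero.1 (congrArg Prod.snd h1).symm, (e i z).1,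
        eq_sub_of_add_eq (congrArg Prod.fst h1).symm⟩

end AH

section Cone

variable {P Q : MCx A}

/-- The differential of the cone. -/
def cd (u : MHom P Q) (i : ℤ) : (Q.X i × P.X (i + 1)) →ₗ[A] Q.X (i + 1) × P.X (i + 1 + 1) :=
  ((Q.d i (i + 1)).coprod (u.f (i + 1))).prod
    (-(P.d (i + 1) (i + 1 + 1)).comp (LinearMap.snd A _ _))

/-- The cone. -/
abbrev cone (u : MHom P Q) : MCx A where
  X i := Q.X i × P.X (i + 1)
  d i j := if h : i + 1 = j then h ▸ cd u i else 0
  dd i j k := by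
    by_cases h : i + 1 = j
    · by_cases h' : j + 1 = k
      · subst h h'
        rw [dif_pos rfl, dif_pos rfl]
        refine LinearMap.ext fun x => Prod.ext ?_ ?_
        · simp [cd, MCx.dd_apply, u.comm _ _ rfl]
        · simp [cd, MCx.dd_apply]
      · rw [dif_neg h', LinearMap.zero_comp]
    · rw [dif_neg h, LinearMap.comp_zero]

theorem cone_d (u : MHom P Q) (i : ℤ) : (cone u).d i (i + 1) = cd u i := dif_pos rfl

theorem qis_cone (u : MHom P Q) : u.a.Qis ↔ (cone u).Acyclic :=
  u.a.qis_iff (C := cone u) (fun _ => AddEquiv.refl _) fun i x => by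
    rw [cone_d]
    rfl

/-- The tensor product with a module. -/
def MHom.tens (u : MHom P Q) (N : Type) [AddCommGroup N] [Module A N] :
    MHom (P.tens N) (Q.tens N) :=
  ⟨fun i => (u.f i).lTensor N, fun i j h x => by
    rw [MCx.tens_d, MCx.tens_d, ← LinearMap.lTensor_comp_apply, ← LinearMap.lTensor_comp_apply,
      show (u.f j).comp (P.d i j) = (Q.d i j).comp (u.f i) from LinearMap.ext (u.comm i j h)]⟩

theorem flat_prod (M N : Type) [AddCommGroup M] [Module A M] [AddCommGroup N] [Module A N]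
    [Module.Flat A M] [Module.Flat A N] : Module.Flat A (M × N) := by
  rw [Module.Flat.iff_rTensor_injectiveₛ]
  intro V _ _ W x y h
  have h1 := congrArg (LinearMap.lTensor V (LinearMap.fst A M N)) h
  have h2 := congrArg (LinearMap.lTensor V (LinearMap.snd A M N)) h
  rw [← LinearMap.comp_apply, ← LinearMap.comp_apply, LinearMap.lTensor_comp_rTensor,
    ← LinearMap.rTensor_comp_lTensor] at h1 h2
  have h3 := Module.Flat.rTensor_preserves_injective_linearMap _ W.injective_subtype h1
  have h4 := Module.Flat.rTensor_preserves_injective_linearMap _ W.injective_subtype h2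
  apply (prodRight A A W M N).injective
  have e : ∀ z, prodRight A A W M N z = (LinearMap.lTensor W (LinearMap.fst A M N) z,
      LinearMap.lTensor W (LinearMap.snd A M N) z) := fun z => by
    induction z with
    | zero => simp [Prod.ext_iff]
    | tmul a b => simp
    | add a b ha hb => rw [map_add, ha, hb, map_add, map_add]; rfl
  rw [e, e, h3, h4]

theorem tens_cone (u : MHom P Q) (N : Type) [AddCommGroup N] [Module A N] (i : ℤ)
    (x : ((cone u).tens N).X i) :
    (prodRight A A N (Q.X (i + 1)) (P.X (i + 1 + 1))).toAddEquiv (((cone u).tens N).d i (i + 1) x) =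
      ((Q.tens N).d i (i + 1) ((prodRight A A N (Q.X i) (P.X (i + 1))).toAddEquiv x).1 +
        (u.tens N).a.f (i + 1) ((prodRight A A N (Q.X i) (P.X (i + 1))).toAddEquiv x).2,
      -(P.tens N).d (i + 1) (i + 1 + 1)
        ((prodRight A A N (Q.X i) (P.X (i + 1))).toAddEquiv x).2) := by
  rw [MCx.tens_d, cone_d]
  induction x using TensorProduct.induction_on with
  | zero => simp [Prod.ext_iff]
  | tmul a b => simp [cd, MHom.a, MHom.tens, tmul_add, tmul_neg]
  | add a b ha hb =>
    simp only [map_add, ha, hb, Prod.fst_add, Prod.snd_add, Prod.mk_add_mk, neg_add]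
    congr 1
    abel

theorem tens_qis [Algebra ℂ A] [Algebra.Smooth ℂ A] (hK : KFLAT) (u : MHom P Q)
    (hP : ∀ i, Module.Flat A (P.X i)) (hQ : ∀ i, Module.Flat A (Q.X i)) (h : u.a.Qis) (N : Type)
    [AddCommGroup N] [Module A N] : (u.tens N).a.Qis :=
  ((u.tens N).a.qis_iff (C := (cone u).tens N)
    (fun i => (prodRight A A N (Q.X i) (P.X (i + 1))).toAddEquiv) (tens_cone u N)).2
    (hK A (cone u) (fun _ => flat_prod _ _) ((qis_cone u).1 h) N)

end Cone

section BC

variable (f : A →+* B) {P P' K : MCx A} {L : MCx B}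

/-- The base change, as a complex of groups. -/
def bcx (P : MCx A) : MCx A :=
  letI : Module A B := Module.compHom B f
  P.tens B

/-- The base change of a morphism. -/
def bcm (w : MHom P' P) : AH (bcx f P') (bcx f P) :=
  letI : Module A B := Module.compHom B f
  (w.tens B).a

/-- The map is semilinear. -/
def SL (t : AH K L) : Prop := ∀ i (a : A) x, t.f i (a • x) = f a • t.f i x

variable {f}

theorem SL.comp {t : AH K L} (ht : SL f t) (p : MHom P K) : SL f (t.comp p.a) := fun i a x =>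
  (congrArg (t.f i) ((p.f i).map_smul a x)).trans (ht i a _)

/-- The map from the base change. -/
def bm (t : AH P L) (ht : SL f t) : AH (bcx f P) L :=
  ⟨fun i => ExtS.lift f (t.f i) (ht i), fun i j h x =>
    (ExtS.lift_map f (P.d i j) (L.d i j).toAddMonoidHom (L.d i j).map_smul (t.f i) (ht i) (t.f j)
      (ht j) (fun x => (t.comm i j h x).symm) x).symm⟩

theorem bm_el (t : AH P L) (ht : SL f t) (i : ℤ) (b : B) (x : P.X i) :
    (bm t ht).f i (ExtS.el f b x) = b • t.f i x := rfl

theorem bc_ext {N : Type} [AddCommGroup N] {i : ℤ} {u v : (bcx f P).X i →+ N}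
    (h : ∀ b x, u (ExtS.el f b x) = v (ExtS.el f b x)) (w : (bcx f P).X i) : u w = v w :=
  Br.el_ind f (motive := fun w => u w = v w) (u.map_zero.trans v.map_zero.symm) h
    (fun x y hx hy => (u.map_add x y).trans
      ((congrArg₂ (· + ·) hx hy).trans (v.map_add x y).symm)) w

theorem bm_iff [Algebra ℂ A] [Algebra.Smooth ℂ A] (hK : KFLAT) {t : AH P L} (ht : SL f t)
    (w : MHom P' P) (hP' : ∀ i, Module.Flat A (P'.X i)) (hP : ∀ i, Module.Flat A (P.X i))
    (h : w.a.Qis) : (bm _ (ht.comp w)).Qis ↔ (bm t ht).Qis := by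
  have h1 : (bcm f w).Qis :=
    letI : Module A B := Module.compHom B f
    tens_qis hK w hP' hP h B
  have e : ∀ i x, ((bm t ht).comp (bcm f w)).f i x = (bm _ (ht.comp w)).f i x :=
    fun i => bc_ext fun _ _ => rfl
  exact ⟨fun h2 => h1.right (h2.congr fun i x => (e i x).symm), fun h2 => (h2.comp h1).congr e⟩

/-- The map `t` exhibits `L` as the derived base change of `K`. -/
def DBC (t : AH K L) (ht : SL f t) : Prop :=
  ∀ (P : MCx A) (p : MHom P K), (∀ i, Module.Flat A (P.X i)) → p.a.Qis → (bm _ (ht.comp p)).Qis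

theorem dbc_of [Algebra ℂ A] [Algebra.Smooth ℂ A] (hK : KFLAT) (hR : RES) {t : AH K L}
    (ht : SL f t) (p : MHom P K) (hP : ∀ i, Module.Flat A (P.X i)) (hp : p.a.Qis)
    (h : (bm _ (ht.comp p)).Qis) : DBC t ht := by
  obtain ⟨Q, e, m, h1, -, h2, h3⟩ := hR A
  have key : ∀ (P : MCx A) (p : MHom P K), (∀ i, Module.Flat A (P.X i)) → p.a.Qis →
      ((bm _ (ht.comp p)).Qis ↔ (bm _ (ht.comp (e K))).Qis) := by
    intro P p hP hp
    have h4 : (m P K p).a.Qis := AH.Qis.left (v := (e K).a) (h2 K)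
      ((hp.comp (u := (e P).a) (h2 P)).congr fun i x => (h3 P K p i x).symm)
    rw [← bm_iff hK (ht.comp p) (e P) (h1 P) hP (h2 P),
      ← bm_iff hK (ht.comp (e K)) (m P K p) (h1 P) (h1 K) h4]
    have e' : ∀ i x, (bm _ ((ht.comp p).comp (e P))).f i x =
        (bm _ ((ht.comp (e K)).comp (m P K p))).f i x := fun i => bc_ext fun b x =>
      congrArg (fun y => b • t.f i y) (h3 P K p i x).symm
    exact ⟨fun h => h.congr e', fun h => h.congr fun i x => (e' i x).symm⟩
  exact fun P' p' hP' hp' => (key P' p' hP' hp').2 ((key P p hP hp).1 h)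

end BC

end

end Vale.Agent.P286EG
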