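import Vale.Agent.P286EG.AH
import Vale.Agent.P286EG1.Main
import Vale.Agent.P286EG2.Main
import Vale.Agent.P286.H847.GD

/-!
# Graded differential spaces with an action of a ring, derived base change
-/

namespace Vale.Agent.P286EG

open Vale.Agent.P286 Vale.Agent.P286.H847 TensorProduct

noncomputable section

/-- A graded differential space with an action of `A`. -/
structure AG (A : Type) [CommRing A] where
  G : GD
  fn : A →+* Module.End ℂ G.V
  gr : ∀ a m x, x ∈ G.gr m → fn a x ∈ G.gr m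
  d : ∀ a x, G.d (fn a x) = fn a (G.d x)

variable {A B D : Type} [CommRing A] [CommRing B] [CommRing D]

namespace AG

/-- The homogeneous elements. -/
def T (M : AG A) (i : ℤ) : Type := M.G.gr i

instance (M : AG A) (i : ℤ) : AddCommGroup (M.T i) := inferInstanceAs (AddCommGroup (M.G.gr i))

/-- The underlying element. -/
def val (M : AG A) (i : ℤ) : M.T i →+ M.G.V := (M.G.gr i).subtype.toAddMonoidHom

theorem val_mem (M : AG A) {i : ℤ} (x : M.T i) : M.val i x ∈ M.G.gr i :=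
  Subtype.property (p := fun z => z ∈ M.G.gr i) x

theorem val_inj (M : AG A) {i : ℤ} {x y : M.T i} (h : M.val i x = M.val i y) : x = y :=
  Subtype.ext (p := fun z => z ∈ M.G.gr i) h

/-- The homogeneous element. -/
def el (M : AG A) {i : ℤ} (x : M.G.V) (h : x ∈ M.G.gr i) : M.T i := (⟨x, h⟩ : M.G.gr i)

@[simp] theorem val_el (M : AG A) {i : ℤ} (x : M.G.V) (h : x ∈ M.G.gr i) :
    M.val i (M.el x h) = x := rfl

instance (M : AG A) (i : ℤ) : SMul A (M.T i) :=
  ⟨fun a x => M.el (M.fn a (M.val i x)) (M.gr a i _ (M.val_mem x))⟩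

theorem val_smul (M : AG A) {i : ℤ} (a : A) (x : M.T i) :
    M.val i (a • x) = M.fn a (M.val i x) := rfl

instance (M : AG A) (i : ℤ) : Module A (M.T i) := Module.ofMinimalAxioms
  (fun a x y => M.val_inj (by simp only [val_smul, map_add]))
  (fun a b x => M.val_inj (by simp only [val_smul, map_add, LinearMap.add_apply]))
  (fun a b x => M.val_inj (by simp only [val_smul, map_mul, Module.End.mul_apply]))
  fun x => M.val_inj (by simp only [val_smul, map_one, Module.End.one_apply])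

/-- The differential. -/
def gd (G : GD) (i j : ℤ) : G.gr i →ₗ[ℂ] G.gr j :=
  if h : i + 1 = j then G.d.restrict fun _ hx => G.dgr' h.symm hx else 0

theorem val_gd (M : AG A) {i j : ℤ} (h : i + 1 = j) (x : M.T i) :
    M.val j (gd M.G i j x) = M.G.d (M.val i x) := by
  rw [gd, dif_pos h]
  rfl

theorem gd_ne (G : GD) {i j : ℤ} (h : ¬i + 1 = j) (x : G.gr i) : gd G i j x = 0 := by
  rw [gd, dif_neg h]
  rfl

/-- The differential. -/
def dT (M : AG A) (i j : ℤ) : M.T i →ₗ[A] M.T j where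
  toFun := gd M.G i j
  map_add' := map_add (gd M.G i j)
  map_smul' a x := by
    by_cases h : i + 1 = j
    · exact M.val_inj ((M.val_gd h _).trans ((M.d a _).trans
        (congrArg (M.fn a) (M.val_gd h x).symm)))
    · exact (gd_ne _ h _).trans ((smul_zero (A := M.T j) a).symm.trans
        (congrArg (fun y : M.T j => a • y) (gd_ne _ h x).symm))

theorem val_d (M : AG A) {i j : ℤ} (h : i + 1 = j) (x : M.T i) :
    M.val j (M.dT i j x) = M.G.d (M.val i x) := M.val_gd h x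

theorem dT_ne (M : AG A) {i j : ℤ} (h : ¬i + 1 = j) : M.dT i j = 0 := LinearMap.ext (gd_ne _ h)

/-- The complex of modules. -/
abbrev mc (M : AG A) : MCx A where
  X := M.T
  d := M.dT
  dd i j k := by
    by_cases h : i + 1 = j
    · by_cases h' : j + 1 = k
      · exact LinearMap.ext fun x => M.val_inj (by
          rw [LinearMap.comp_apply, val_d _ h', val_d _ h, M.G.dd, LinearMap.zero_apply, map_zero])
      · rw [dT_ne _ h', LinearMap.zero_comp]
    · rw [dT_ne _ h, LinearMap.comp_zero]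

/-- Restriction of scalars. -/
abbrev res (M : AG B) (f : A →+* B) : AG A :=
  ⟨M.G, M.fn.comp f, fun a => M.gr (f a), fun a => M.d (f a)⟩

end AG

variable {M M' : AG A} {N N' : AG B} {R : AG D} {f : A →+* B} {g : B →+* D}

/-- The morphism of complexes. -/
def ah (M : AG A) (N : AG B) (u : GD.Hom M.G N.G) : AH M.mc N.mc :=
  ⟨fun i => AddMonoidHom.mk' (fun x => N.el (u.f (M.val i x)) (u.deg i _ (M.val_mem x)))
    fun x y => N.val_inj (by simp only [AG.val_el, map_add]), fun i j h x => N.val_inj (by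
      change u.f (M.val j (M.dT i j x)) = N.val j (N.dT i j _)
      rw [M.val_d h, N.val_d h, u.comm]
      rfl)⟩

theorem val_ah (u : GD.Hom M.G N.G) (i : ℤ) (x : M.T i) :
    N.val i ((ah M N u).f i x) = u.f (M.val i x) := rfl

theorem ah_qis (u : GD.Hom M.G N.G) : (ah M N u).Qis ↔ GD.Qis u := by
  constructor
  · intro h m
    obtain ⟨h1, h2⟩ := h (m - 1) m (m + 1) (by ring) rfl
    refine ⟨?_, fun y hy hd => ?_⟩
    · rintro x hx hd ⟨y, hy, e⟩
      obtain ⟨x', e'⟩ := h1 (M.el x hx) (M.val_inj (by rw [M.val_d rfl, map_zero]; exact hd))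
        ⟨N.el y hy, N.val_inj (by rw [N.val_d (by ring)]; exact e)⟩
      exact ⟨_, M.val_mem x', (M.val_d (by ring) x').symm.trans (congrArg (M.val m) e')⟩
    · obtain ⟨x, hx, y', e⟩ := h2 (N.el y hy) (N.val_inj (by rw [N.val_d rfl, map_zero]; exact hd))
      exact ⟨_, M.val_mem x, (M.val_d rfl x).symm.trans (congrArg (M.val _) hx), _, N.val_mem y',
        (N.val_d (by ring) y').symm.trans (congrArg (N.val m) e)⟩
  · intro h i j k hi hj
    obtain rfl : i = j - 1 := by omega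
    refine ⟨?_, fun y hy => ?_⟩
    · rintro x hx ⟨y, e⟩
      obtain ⟨x', hx', e'⟩ := (h j).1 _ (M.val_mem x)
        ((M.val_d hj x).symm.trans (congrArg (M.val k) hx))
        ⟨_, N.val_mem y, (N.val_d hi y).symm.trans (congrArg (N.val j) e)⟩
      exact ⟨M.el x' hx', M.val_inj ((M.val_d hi _).trans e')⟩
    · obtain ⟨x, hx, hd, y', hy', e⟩ := (h j).2 _ (N.val_mem y)
        ((N.val_d hj y).symm.trans (congrArg (N.val k) hy))
      exact ⟨M.el x hx, M.val_inj ((M.val_d hj _).trans hd), N.el y' hy',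
        N.val_inj ((N.val_d hi _).trans e)⟩

/-- The morphism is semilinear. -/
def Sl (f : A →+* B) (M : AG A) (N : AG B) (u : GD.Hom M.G N.G) : Prop :=
  ∀ a x, u.f (M.fn a x) = N.fn (f a) (u.f x)

theorem Sl.sl {u : GD.Hom M.G N.G} (h : Sl f M N u) : SL f (ah M N u) :=
  fun _ a _ => N.val_inj (h a _)

theorem Sl.comp {u : GD.Hom M.G N.G} {v : GD.Hom N.G R.G} (hv : Sl g N R v) (hu : Sl f M N u) :
    Sl (g.comp f) M R (v.comp u) := fun a x => (congrArg v.f (hu a x)).trans (hv _ _)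

/-- The morphism is linear. -/
abbrev Li (M M' : AG A) (u : GD.Hom M.G M'.G) : Prop := Sl (RingHom.id A) M M' u

/-- The morphism of complexes of modules. -/
def mh {u : GD.Hom M.G M'.G} (h : Li M M' u) : MHom M.mc M'.mc :=
  ⟨fun i => ⟨⟨(ah M M' u).f i, map_add _⟩, h.sl i⟩, (ah M M' u).comm⟩

/-- **The map `t` exhibits `N` as the derived base change of `M` along `f`.** -/
def DB (f : A →+* B) (M : AG A) (N : AG B) (t : GD.Hom M.G N.G) : Prop :=
  ∃ h : Sl f M N t, DBC (ah M N t) h.sl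

theorem exists_res [Algebra ℂ A] (K : MCx A) : ∃ (P : MCx A) (p : MHom P K),
    (∀ i, Module.Flat A (P.X i)) ∧ (∀ i j, i + 1 ≠ j → P.d i j = 0) ∧ p.a.Qis := by
  obtain ⟨Q, e, m, h1, h2, h3, -⟩ := P286EG2.res A
  exact ⟨Q K, e K, h1 K, h2 K, h3 K⟩

variable {t : GD.Hom M.G N.G} {t' : GD.Hom M'.G N'.G} {u : GD.Hom M.G M'.G} {v : GD.Hom N.G N'.G}

theorem bm_sq (ht : Sl f M N t) (ht' : Sl f M' N' t') (hu : Li M M' u) (hv : Li N N' v)
    (e : ∀ x, v.f (t.f x) = t'.f (u.f x)) {P : MCx A} (p : MHom P M.mc) (i : ℤ)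
    (x : (bcx f P).X i) : ((ah N N' v).comp (bm _ (ht.sl.comp p))).f i x =
      (bm _ (ht'.sl.comp ((mh hu).comp p))).f i x :=
  bc_ext (fun b _ => N'.val_inj ((hv b _).trans (congrArg (N'.fn b) (e _)))) x

/-- Invariance under quasi-isomorphisms, backwards. -/
theorem DB.rev (h : DB f M' N' t') (ht : Sl f M N t) (hu : Li M M' u) (hv : Li N N' v)
    (qu : GD.Qis u) (qv : GD.Qis v) (e : ∀ x, v.f (t.f x) = t'.f (u.f x)) : DB f M N t :=
  ⟨ht, fun P p hP hp => ((ah_qis v).2 qv).left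
    ((h.2 P ((mh hu).comp p) hP (((ah_qis u).2 qu).comp hp)).congr
      fun i x => (bm_sq ht h.1 hu hv e p i x).symm)⟩

variable [Algebra ℂ A] [Algebra.Smooth ℂ A]

theorem DB.of (ht : Sl f M N t) {P : MCx A} (p : MHom P M.mc) (hP : ∀ i, Module.Flat A (P.X i))
    (hp : p.a.Qis) (h : (bm _ (ht.sl.comp p)).Qis) : DB f M N t :=
  ⟨ht, dbc_of P286EG1.kflat P286EG2.res ht.sl p hP hp h⟩

/-- Invariance under quasi-isomorphisms, forwards. -/
theorem DB.fwd (h : DB f M N t) (ht' : Sl f M' N' t') (hu : Li M M' u) (hv : Li N N' v)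
    (qu : GD.Qis u) (qv : GD.Qis v) (e : ∀ x, v.f (t.f x) = t'.f (u.f x)) : DB f M' N' t' := by
  obtain ⟨P, p, h1, -, h2⟩ := exists_res M.mc
  exact DB.of ht' ((mh hu).comp p) h1 (((ah_qis u).2 qu).comp h2)
    ((((ah_qis v).2 qv).comp (h.2 P p h1 h2)).congr (bm_sq h.1 ht' hu hv e p))

omit [Algebra.Smooth ℂ A] in
/-- The derived base change preserves quasi-isomorphisms. -/
theorem DB.qis (h : DB f M N t) (h' : DB f M' N' t') (hu : Li M M' u) (hv : Li N N' v)
    (qu : GD.Qis u) (e : ∀ x, v.f (t.f x) = t'.f (u.f x)) : GD.Qis v := by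
  obtain ⟨P, p, h1, -, h2⟩ := exists_res M.mc
  exact (ah_qis v).1 ((h.2 P p h1 h2).right
    ((h'.2 P ((mh hu).comp p) h1 (((ah_qis u).2 qu).comp h2)).congr
      fun i x => (bm_sq h.1 h'.1 hu hv e p i x).symm))

/-- Retracts. -/
theorem DB.retract (h : DB f M' N' t') (ht : Sl f M N t) (hu : Li M M' u) (hv : Li N N' v)
    {r : GD.Hom M'.G M.G} {s : GD.Hom N'.G N.G} (hr : Li M' M r) (hs : Li N' N s)
    (e : ∀ x, v.f (t.f x) = t'.f (u.f x)) (e' : ∀ x, s.f (t'.f x) = t.f (r.f x))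
    (ru : ∀ x, r.f (u.f x) = x) (sv : ∀ x, s.f (v.f x) = x) : DB f M N t := by
  obtain ⟨Q, ε, m, h1, -, h2, h3⟩ := P286EG2.res A
  refine DB.of ht (ε _) (h1 _) (h2 _) ?_
  have q' := h.2 _ (ε _) (h1 _) (h2 _)
  have a1 : ∀ i x, (ah N N' v).f i ((bm _ (ht.sl.comp (ε _))).f i x) =
      (bm _ (h.1.sl.comp (ε _))).f i ((bcm f (m _ _ (mh hu))).f i x) := fun i x =>
    (bm_sq ht h.1 hu hv e (ε _) i x).trans (bc_ext
      (v := ((bm _ (h.1.sl.comp (ε _))).comp (bcm f (m _ _ (mh hu)))).f i)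
      (fun b x => congrArg (fun y => b • (ah M' N' t').f i y) (h3 _ _ (mh hu) i x).symm) x)
  have a2 : ∀ i x, (ah N' N s).f i ((bm _ (h.1.sl.comp (ε _))).f i x) =
      (bm _ (ht.sl.comp (ε _))).f i ((bcm f (m _ _ (mh hr))).f i x) := fun i x =>
    (bm_sq h.1 ht hr hs e' (ε _) i x).trans (bc_ext
      (v := ((bm _ (ht.sl.comp (ε _))).comp (bcm f (m _ _ (mh hr)))).f i)
      (fun b x => congrArg (fun y => b • (ah M N t).f i y) (h3 _ _ (mh hr) i x).symm) x)
  have q : ((bcm f (m _ _ (mh hr))).comp (bcm f (m _ _ (mh hu)))).Qis := by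
    have h4 : ((m _ _ (mh hr)).comp (m _ _ (mh hu))).a.Qis :=
      AH.Qis.left (v := (ε _).a) (h2 _) (AH.Qis.congr (u := (ε _).a) (h2 _) fun i x =>
        ((h3 _ _ (mh hr) i _).trans ((congrArg ((mh hr).f i) (h3 _ _ (mh hu) i x)).trans
          (M.val_inj (ru _)))).symm)
    have h5 : (bcm f ((m _ _ (mh hr)).comp (m _ _ (mh hu)))).Qis :=
      letI : Module A B := Module.compHom B f
      tens_qis P286EG1.kflat _ (h1 _) (h1 _) h4 B
    exact h5.congr fun i => bc_ext fun _ _ => rfl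
  intro i j k hi hj
  refine ⟨?_, fun y hy => ?_⟩
  · rintro x hx ⟨y, ey⟩
    obtain ⟨x', ex⟩ := (q' i j k hi hj).1 ((bcm f (m _ _ (mh hu))).f j x)
      (by rw [← AH.comm _ j k hj, hx, map_zero])
      ⟨(ah N N' v).f i y, by rw [← AH.comm _ i j hi, ey, a1]⟩
    exact (q i j k hi hj).1 x hx ⟨(bcm f (m _ _ (mh hr))).f i x', by
      rw [← AH.comm _ i j hi, ex]; rfl⟩
  · obtain ⟨x, hx, y', ey⟩ := (q' i j k hi hj).2 ((ah N N' v).f j y)
      (by rw [← AH.comm _ j k hj, hy, map_zero])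
    refine ⟨(bcm f (m _ _ (mh hr))).f j x, by rw [← AH.comm _ j k hj, hx, map_zero],
      (ah N' N s).f i y', ?_⟩
    rw [← AH.comm _ i j hi, ey, map_sub, a2]
    exact congrArg (· - _) (N.val_inj (sv _))

end

end Vale.Agent.P286EG
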