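import Vale.Agent.P286EG.Ag

/-!
# Derived base change: cones, shifts, products, push-out squares, composition
-/

namespace Vale.Agent.P286EG

open Vale.Agent.P286 Vale.Agent.P286.H847 TensorProduct

noncomputable section

variable {A B D A' B' : Type} [CommRing A] [CommRing B] [CommRing D] [CommRing A'] [CommRing B']

/-- The five lemma for cones. -/
theorem AH.five {P Q C : MCx A} {P' Q' C' : MCx B} (u : AH P Q) (u' : AH P' Q') {a : AH P P'}
    {b : AH Q Q'} (c : AH C C') (ha : a.Qis) (hb : b.Qis)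
    (s : ∀ i x, b.f i (u.f i x) = u'.f i (a.f i x)) (e : ∀ i, C.X i ≃+ Q.X i × P.X (i + 1))
    (he : ∀ i x, e (i + 1) (C.d i (i + 1) x) =
      (Q.d i (i + 1) (e i x).1 + u.f (i + 1) (e i x).2, -P.d (i + 1) (i + 1 + 1) (e i x).2))
    (e' : ∀ i, C'.X i ≃+ Q'.X i × P'.X (i + 1))
    (he' : ∀ i x, e' (i + 1) (C'.d i (i + 1) x) =
      (Q'.d i (i + 1) (e' i x).1 + u'.f (i + 1) (e' i x).2, -P'.d (i + 1) (i + 1 + 1) (e' i x).2))
    (hc : ∀ i x, e' i (c.f i x) = (b.f i (e i x).1, a.f (i + 1) (e i x).2)) : c.Qis := by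
  rintro i _ _ rfl rfl
  refine ⟨?_, fun z hz => ?_⟩
  · rintro z hz ⟨w, hw⟩
    have h0 := he (i + 1) z
    have h3 := he' i w
    rw [hz, map_zero] at h0
    rw [hw, hc] at h3
    obtain ⟨h1, h2⟩ := Prod.ext_iff.1 h0.symm
    obtain ⟨h4, h5⟩ := Prod.ext_iff.1 h3
    simp only [Prod.fst_zero, Prod.snd_zero, neg_eq_zero] at h1 h2 h4 h5
    obtain ⟨p₁, e₁⟩ := (ha (i + 1) _ _ rfl rfl).1 _ h2 ⟨-(e' i w).2, by rw [map_neg, h5]⟩
    obtain ⟨p₂, e₂, r, e₃⟩ := (ha i _ _ rfl rfl).2 (a.f _ p₁ + (e' i w).2) (by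
      rw [map_add, ← a.comm _ _ rfl, e₁, h5, neg_add_cancel])
    obtain ⟨q₁, e₄⟩ := (hb i _ _ rfl rfl).1 ((e (i + 1) z).1 + u.f _ (p₁ - p₂)) (by
      rw [map_add, ← u.comm _ _ rfl, map_sub, e₁, e₂, sub_zero, h1]) ⟨(e' i w).1 + u'.f _ r, by
      rw [map_add, ← u'.comm _ _ rfl, e₃, map_add (b.f _), h4, s, map_sub, map_sub, map_sub,
        map_add]
      abel⟩
    refine ⟨(e i).symm (q₁, -(p₁ - p₂)), (e _).injective ?_⟩
    rw [he, AddEquiv.apply_symm_apply]
    refine Prod.ext ?_ ?_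
    · simp only [e₄, map_neg, add_neg_cancel_right]
    · simp only [map_neg, neg_neg, map_sub, e₁, e₂, sub_zero]
  · have h0 := he' (i + 1) z
    rw [hz, map_zero] at h0
    obtain ⟨h1, h2⟩ := Prod.ext_iff.1 h0.symm
    simp only [Prod.fst_zero, Prod.snd_zero, neg_eq_zero] at h1 h2
    obtain ⟨p, e₁, r, e₂⟩ := (ha (i + 1) _ _ rfl rfl).2 _ h2
    have h3 : Q'.d _ (i + 1 + 1) ((e' (i + 1) z).1 + u'.f _ r) = -b.f _ (u.f _ p) := by
      rw [map_add, ← u'.comm _ _ rfl, e₂, map_sub, s, ← add_sub_assoc, h1, zero_sub]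
    obtain ⟨q₁, e₃⟩ := (hb (i + 1) _ _ rfl rfl).1 (u.f _ p)
      (by rw [← u.comm _ _ rfl, e₁, map_zero]) ⟨-_, by rw [map_neg, h3, neg_neg]⟩
    obtain ⟨q₂, e₄, s', e₅⟩ := (hb i _ _ rfl rfl).2 ((e' (i + 1) z).1 + u'.f _ r + b.f _ q₁) (by
      rw [map_add, h3, ← b.comm _ _ rfl, e₃, neg_add_cancel])
    refine ⟨(e _).symm (q₂ - q₁, p), (e _).injective ?_, (e' i).symm (s', -r),
      (e' _).injective ?_⟩
    · rw [he, AddEquiv.apply_symm_apply, map_zero]
      refine Prod.ext ?_ ?_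
      · simp only [map_sub, e₃, e₄, zero_sub, neg_add_cancel, Prod.fst_zero]
      · simp only [e₁, neg_zero, Prod.snd_zero]
    · rw [he', map_sub, hc, AddEquiv.apply_symm_apply, AddEquiv.apply_symm_apply]
      refine Prod.ext ?_ ?_
      · simp only [e₅, map_neg, map_sub, Prod.fst_sub]
        abel
      · simp only [map_neg, neg_neg, e₂, Prod.snd_sub]

variable {M M' : AG A} {N N' : AG B} {R : AG D} {f : A →+* B} {g : B →+* D}
  {t : GD.Hom M.G N.G} {t' : GD.Hom M'.G N'.G} {u : GD.Hom M.G M'.G} {v : GD.Hom N.G N'.G}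

/-- The product of two ring homomorphisms to endomorphisms. -/
def pfn {V W : Type} [AddCommGroup V] [Module ℂ V] [AddCommGroup W] [Module ℂ W]
    (a : A →+* Module.End ℂ V) (b : A →+* Module.End ℂ W) : A →+* Module.End ℂ (V × W) :=
  (LinearMap.prodMapRingHom ℂ V W).comp (a.prod b)

theorem pfn_apply {V W : Type} [AddCommGroup V] [Module ℂ V] [AddCommGroup W] [Module ℂ W]
    (a : A →+* Module.End ℂ V) (b : A →+* Module.End ℂ W) (c : A) (x : V × W) :
    pfn a b c x = (a c x.1, b c x.2) := rfl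

/-- The cone. -/
abbrev AG.cone (hu : Li M M' u) : AG A where
  G := GD.Cone u
  fn := pfn M'.fn M.fn
  gr a _ _ h := ⟨M'.gr a _ _ h.1, M.gr a _ _ h.2⟩
  d a x := by
    rw [GD.cone_d, GD.cone_d, pfn_apply, pfn_apply, map_add, map_neg, M.d, M'.d, hu]
    rfl

/-- The map of the cones. -/
def coneMap {M M' N N' : GD} {u : GD.Hom M M'} {v : GD.Hom N N'} (t : GD.Hom M N)
    (t' : GD.Hom M' N') (e : ∀ x, v.f (t.f x) = t'.f (u.f x)) : GD.Hom (GD.Cone u) (GD.Cone v) where
  f := t'.f.prodMap t.f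
  comm x := by
    rw [GD.cone_d, GD.cone_d, LinearMap.prodMap_apply, LinearMap.prodMap_apply, map_add, map_neg,
      t.comm, t'.comm, e]
  deg _ _ h := ⟨t'.deg _ _ h.1, t.deg _ _ h.2⟩

/-- The terms of the cone. -/
def coneE (hu : Li M M' u) (i : ℤ) : (AG.cone hu).T i ≃ₗ[A] M'.T i × M.T (i + 1) where
  toFun x := (M'.el _ ((AG.cone hu).val_mem x).1, M.el _ ((AG.cone hu).val_mem x).2)
  invFun x := (AG.cone hu).el (M'.val _ x.1, M.val _ x.2) ⟨M'.val_mem _, M.val_mem _⟩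
  left_inv _ := rfl
  right_inv _ := rfl
  map_add' _ _ := rfl
  map_smul' _ _ := rfl

theorem coneE_d (hu : Li M M' u) (i : ℤ) (x : (AG.cone hu).T i) :
    coneE hu (i + 1) ((AG.cone hu).dT i (i + 1) x) =
      (M'.dT i (i + 1) (coneE hu i x).1 + (ah M M' u).f (i + 1) (coneE hu i x).2,
        -M.dT (i + 1) (i + 1 + 1) (coneE hu i x).2) := by
  have h := (AG.cone hu).val_d (rfl : i + 1 = i + 1) x
  refine Prod.ext (M'.val_inj ?_) (M.val_inj ?_)
  · rw [map_add, M'.val_d rfl]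
    exact congrArg Prod.fst h
  · rw [map_neg, M.val_d rfl]
    exact congrArg Prod.snd h

/-- The shift. -/
abbrev gsh (M : GD) (n : ℤ) (c : ℤˣ) : GD where
  V := M.V
  d := (c : ℤ) • M.d
  dd x := by simp [M.dd]
  gr m := M.gr (m + n)
  dgr _ _ h := zsmul_mem (M.dgr' (by ring) h) _

/-- The shift. -/
abbrev AG.sh (M : AG A) (n : ℤ) (c : ℤˣ) : AG A where
  G := gsh M.G n c
  fn := M.fn
  gr a _ _ h := M.gr a _ _ h
  d a x := by simp [M.d]

/-- The shift of a map. -/
def shMap {M N : GD} (t : GD.Hom M N) (n : ℤ) (c : ℤˣ) : GD.Hom (gsh M n c) (gsh N n c) :=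
  ⟨t.f, fun x => by simp [t.comm], fun _ _ h => t.deg _ _ h⟩

/-- The terms of the shift. -/
def shE (M : AG A) (n : ℤ) (c : ℤˣ) (i : ℤ) : (M.sh n c).T i ≃ₗ[A] M.T (i + n) where
  toFun x := M.el _ ((M.sh n c).val_mem x)
  invFun x := (M.sh n c).el (M.val _ x) (M.val_mem _)
  left_inv _ := rfl
  right_inv _ := rfl
  map_add' _ _ := rfl
  map_smul' _ _ := rfl

theorem shE_d (M : AG A) (n : ℤ) (c : ℤˣ) (i j : ℤ) (h : i + 1 = j) (x : (M.sh n c).T i) :
    shE M n c j ((M.sh n c).dT i j x) = (c : ℤ) • M.dT (i + n) (j + n) (shE M n c i x) :=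
  M.val_inj (((M.sh n c).val_d h x).trans (by rw [map_zsmul, M.val_d (by omega)]; rfl))

/-- The shift. -/
abbrev msh (P : MCx A) (n : ℤ) (c : ℤˣ) : MCx A where
  X i := P.X (i + n)
  d i j := (c : ℤ) • P.d (i + n) (j + n)
  dd i j k := by rw [LinearMap.smul_comp, LinearMap.comp_smul, P.dd, smul_zero, smul_zero]

theorem AH.sh {P C : MCx A} {Q C' : MCx B} {a : AH P Q} (ha : a.Qis) (w : AH C C') (n : ℤ)
    (c : ℤˣ) (e : ∀ i, C.X i ≃+ P.X (i + n))
    (he : ∀ i j, i + 1 = j → ∀ x, e j (C.d i j x) = (c : ℤ) • P.d (i + n) (j + n) (e i x))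
    (e' : ∀ i, C'.X i ≃+ Q.X (i + n))
    (he' : ∀ i j, i + 1 = j → ∀ x, e' j (C'.d i j x) = (c : ℤ) • Q.d (i + n) (j + n) (e' i x))
    (hw : ∀ i x, e' i (w.f i x) = a.f (i + n) (e i x)) : w.Qis := by
  intro i j k hi hj
  obtain ⟨h1, h2⟩ := ha (i + n) (j + n) (k + n) (by omega) (by omega)
  have hc : (c : ℤ) * c = 1 := by rw [← Units.val_mul, Int.units_mul_self, Units.val_one]
  refine ⟨?_, fun y hy => ?_⟩
  · rintro x hx ⟨y, ey⟩
    have h3 := congrArg ((c : ℤ) • ·) (he j k hj x)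
    simp only [hx, map_zero, smul_smul, hc, one_smul, smul_zero] at h3
    obtain ⟨x', ex⟩ := h1 _ h3.symm ⟨(c : ℤ) • e' i y, by rw [map_zsmul, ← he' i j hi, ey, hw]⟩
    exact ⟨(e i).symm ((c : ℤ) • x'), (e j).injective (by
      rw [he i j hi, AddEquiv.apply_symm_apply, map_zsmul, smul_smul, hc, one_smul, ex])⟩
  · have h3 := congrArg ((c : ℤ) • ·) (he' j k hj y)
    simp only [hy, map_zero, smul_smul, hc, one_smul, smul_zero] at h3
    obtain ⟨x, hx, y', ey⟩ := h2 _ h3.symm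
    refine ⟨(e j).symm x, (e k).injective ?_, (e' i).symm ((c : ℤ) • y'), (e' j).injective ?_⟩
    · rw [he j k hj, AddEquiv.apply_symm_apply, hx, smul_zero, map_zero]
    · rw [he' i j hi, AddEquiv.apply_symm_apply, map_zsmul, smul_smul, hc, one_smul, ey, map_sub,
        hw, AddEquiv.apply_symm_apply]

theorem AH.pi {ι : Type} {C : MCx A} {C' : MCx B} {P : ι → MCx A} {Q : ι → MCx B}
    {a : ∀ l, AH (P l) (Q l)} (ha : ∀ l, (a l).Qis) (w : AH C C')
    (e : ∀ i, C.X i ≃+ ∀ l, (P l).X i)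
    (he : ∀ i j, i + 1 = j → ∀ x l, e j (C.d i j x) l = (P l).d i j (e i x l))
    (e' : ∀ i, C'.X i ≃+ ∀ l, (Q l).X i)
    (he' : ∀ i j, i + 1 = j → ∀ x l, e' j (C'.d i j x) l = (Q l).d i j (e' i x l))
    (hw : ∀ i x l, e' i (w.f i x) l = (a l).f i (e i x l)) : w.Qis := by
  intro i j k hi hj
  refine ⟨?_, fun y hy => ?_⟩
  · rintro x hx ⟨y, ey⟩
    choose x' ex using fun l => (ha l i j k hi hj).1 (e j x l)
      (by rw [← he j k hj, hx, map_zero]; rfl) ⟨e' i y l, by rw [← he' i j hi, ey, hw]⟩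
    exact ⟨(e i).symm x', (e j).injective (funext fun l => by
      rw [he i j hi, AddEquiv.apply_symm_apply, ex])⟩
  · choose x hx y' ey using fun l => (ha l i j k hi hj).2 (e' j y l)
      (by rw [← he' j k hj, hy, map_zero]; rfl)
    refine ⟨(e j).symm x, (e k).injective (funext fun l => ?_), (e' i).symm y',
      (e' j).injective (funext fun l => ?_)⟩
    · rw [he j k hj, AddEquiv.apply_symm_apply, hx, map_zero]; rfl
    · rw [he' i j hi, AddEquiv.apply_symm_apply, ey, map_sub, Pi.sub_apply, hw,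
        AddEquiv.apply_symm_apply]

/-- The product. -/
abbrev gpi {ι : Type} (M : ι → GD) : GD where
  V := ∀ l, (M l).V
  d := LinearMap.pi fun l => (M l).d.comp (LinearMap.proj l)
  dd x := funext fun l => (M l).dd (x l)
  gr m := Submodule.pi Set.univ fun l => (M l).gr m
  dgr m _ h l hl := (M l).dgr m _ (h l hl)

/-- The product. -/
abbrev AG.pi {ι : Type} (M : ι → AG A) : AG A where
  G := gpi fun l => (M l).G
  fn :=
    { toFun := fun a => LinearMap.pi fun l => ((M l).fn a).comp (LinearMap.proj l)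
      map_one' := by ext; simp
      map_mul' := fun _ _ => by ext; simp
      map_zero' := LinearMap.ext fun x => funext fun l =>
        LinearMap.congr_fun (map_zero (M l).fn) (x l)
      map_add' := fun _ _ => by ext; simp }
  gr a m _ h l hl := (M l).gr a m _ (h l hl)
  d a x := funext fun l => (M l).d a (x l)

/-- The product of maps. -/
def piMap {ι : Type} {M N : ι → GD} (t : ∀ l, GD.Hom (M l) (N l)) : GD.Hom (gpi M) (gpi N) :=
  ⟨LinearMap.pi fun l => (t l).f.comp (LinearMap.proj l), fun x => funext fun l => (t l).comm (x l),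
    fun m _ h l hl => (t l).deg m _ (h l hl)⟩

/-- The terms of the product. -/
def piE {ι : Type} (M : ι → AG A) (i : ℤ) : (AG.pi M).T i ≃ₗ[A] ∀ l, (M l).T i where
  toFun x l := (M l).el _ ((AG.pi M).val_mem x l trivial)
  invFun x := (AG.pi M).el (fun l => (M l).val _ (x l)) fun l _ => (M l).val_mem _
  left_inv _ := rfl
  right_inv _ := rfl
  map_add' _ _ := rfl
  map_smul' _ _ := rfl

theorem piE_d {ι : Type} (M : ι → AG A) (i j : ℤ) (h : i + 1 = j) (x : (AG.pi M).T i) (l : ι) :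
    piE M j ((AG.pi M).dT i j x) l = (M l).dT i j (piE M i x l) :=
  (M l).val_inj ((congrFun ((AG.pi M).val_d h x) l).trans ((M l).val_d h (piE M i x l)).symm)

/-- The product. -/
abbrev mpi {ι : Type} (P : ι → MCx A) : MCx A where
  X i := ∀ l, (P l).X i
  d i j := LinearMap.pi fun l => ((P l).d i j).comp (LinearMap.proj l)
  dd i j k := LinearMap.ext fun x => funext fun l => (P l).dd_apply i j k (x l)

variable [Algebra ℂ A] [Algebra.Smooth ℂ A]

/-- Cones. -/
theorem DB.cone (h : DB f M N t) (h' : DB f M' N' t') (hu : Li M M' u) (hv : Li N N' v)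
    (e : ∀ x, v.f (t.f x) = t'.f (u.f x)) :
    DB f (AG.cone hu) (AG.cone hv) (coneMap t t' e) := by
  obtain ⟨Q, ε, m, h1, -, h2, h3⟩ := P286EG2.res A
  let p : MHom (P286EG.cone (m _ _ (mh hu))) (AG.cone hu).mc :=
    ⟨fun i => (coneE hu i).symm.toLinearMap.comp (((ε _).f i).prodMap ((ε _).f (i + 1))), by
      rintro i _ rfl x
      apply (coneE hu _).injective
      rw [coneE_d, cone_d]
      refine Prod.ext ?_ ?_
      · exact (map_add ((ε M'.mc).f (i + 1)) _ _).trans (congrArg₂ (· + ·) ((ε _).comm _ _ rfl _) (h3 _ _ (mh hu) _ _))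
      · exact (map_neg ((ε M.mc).f (i + 1 + 1)) _).trans
          (congrArg Neg.neg ((ε _).comm _ _ rfl _))⟩
  have hs : Sl f (AG.cone hu) (AG.cone hv) (coneMap t t' e) := fun a x =>
    Prod.ext (h'.1 a x.1) (h.1 a x.2)
  refine DB.of hs p (fun i => flat_prod _ _) (AH.five (m _ _ (mh hu)).a (ah M M' u) p.a
    (a := (ε _).a) (b := (ε _).a) (h2 _) (h2 _) (h3 _ _ (mh hu)) (fun _ => AddEquiv.refl _)
    (fun i x => by rw [cone_d]; rfl) (fun i => (coneE hu i).toAddEquiv) (coneE_d hu)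
    fun _ _ => rfl) ?_
  let _ : Module A B := Module.compHom B f
  refine AH.five (bcm f (m _ _ (mh hu))) (ah N N' v) _ (h.2 _ (ε _) (h1 _) (h2 _))
    (h'.2 _ (ε _) (h1 _) (h2 _)) (fun i x => ?_)
    (fun i => (prodRight A A B ((Q _).X i) ((Q _).X (i + 1))).toAddEquiv) (tens_cone _ B)
    (fun i => (coneE hv i).toAddEquiv) (coneE_d hv) fun i x => ?_
  · exact ((bm_sq h.1 h'.1 hu hv e (ε _) i x).trans (bc_ext
      (v := ((bm _ (h'.1.sl.comp (ε _))).comp (bcm f (m _ _ (mh hu)))).f i)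
      (fun b x => congrArg (fun y => b • (ah M' N' t').f i y) (h3 _ _ (mh hu) i x).symm) x)).symm
  · exact bc_ext (u := (coneE hv i).toAddEquiv.toAddMonoidHom.comp ((bm _ (hs.sl.comp p)).f i))
      (v := (((bm _ (h'.1.sl.comp (ε _))).f i).prodMap
        ((bm _ (h.1.sl.comp (ε _))).f (i + 1))).comp
        (prodRight A A B ((Q _).X i) ((Q _).X (i + 1))).toAddEquiv.toAddMonoidHom)
      (fun _ _ => rfl) x

/-- Shifts. -/
theorem DB.sh (h : DB f M N t) (n : ℤ) (c : ℤˣ) : DB f (M.sh n c) (N.sh n c) (shMap t n c) := by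
  obtain ⟨P, p, h1, -, h2⟩ := exists_res M.mc
  let p' : MHom (msh P n c) (M.sh n c).mc :=
    ⟨fun i => (shE M n c i).symm.toLinearMap.comp (p.f (i + n)), fun i j h x =>
      (shE M n c j).injective (((map_zsmul (p.f (j + n)) _ _).trans
        (congrArg ((c : ℤ) • ·) (p.comm _ _ (by omega) x))).trans
          (shE_d M n c i j h ((shE M n c i).symm (p.f (i + n) x))).symm)⟩
  have hs : Sl f (M.sh n c) (N.sh n c) (shMap t n c) := h.1
  refine DB.of hs p' (fun i => h1 _)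
    (AH.sh h2 p'.a n c (fun _ => AddEquiv.refl _) (fun _ _ _ _ => rfl)
      (fun i => (shE M n c i).toAddEquiv) (shE_d M n c) fun _ _ => rfl) ?_
  let _ : Module A B := Module.compHom B f
  refine AH.sh (h.2 P p h1 h2) _ n c (fun i => AddEquiv.refl (B ⊗[A] P.X (i + n)))
    (fun i j _ x => ?_) (fun i => (shE N n c i).toAddEquiv) (shE_d N n c) fun i x => ?_
  · exact bc_ext (P := msh P n c) (u := ((bcx f (msh P n c)).d i j).toAddMonoidHom)
      (v := (c : ℤ) • ((bcx f P).d (i + n) (j + n)).toAddMonoidHom)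
      (fun b x => tmul_smul (c : ℤ) b (P.d (i + n) (j + n) x)) x
  · exact bc_ext (P := msh P n c)
      (u := (shE N n c i).toAddEquiv.toAddMonoidHom.comp ((bm _ (hs.sl.comp p')).f i))
      (v := (bm _ (h.1.sl.comp p)).f (i + n)) (fun _ _ => rfl) x

/-- Finite products. -/
theorem DB.pi {ι : Type} [Finite ι] {M : ι → AG A} {N : ι → AG B}
    {t : ∀ l, GD.Hom (M l).G (N l).G} (h : ∀ l, DB f (M l) (N l) (t l)) :
    DB f (AG.pi M) (AG.pi N) (piMap t) := by
  classical
  have := Fintype.ofFinite ι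
  choose P p h1 _ h2 using fun l => exists_res (M l).mc
  let p' : MHom (mpi P) (AG.pi M).mc :=
    ⟨fun i => (piE M i).symm.toLinearMap.comp
      (LinearMap.pi fun l => ((p l).f i).comp (LinearMap.proj l)), fun i j h x =>
      (piE M j).injective (funext fun l => ((p l).comm i j h _).trans
        (piE_d M i j h ((piE M i).symm fun l => (p l).f i (x l)) l).symm)⟩
  have hs : Sl f (AG.pi M) (AG.pi N) (piMap t) := fun a x => funext fun l => (h l).1 a (x l)
  refine DB.of hs p' (fun i => ?_) (AH.pi h2 p'.a (fun _ => AddEquiv.refl _)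
    (fun _ _ _ _ _ => rfl) (fun i => (piE M i).toAddEquiv) (piE_d M) fun _ _ _ => rfl) ?_
  · have := fun l => h1 l i
    exact .of_linearEquiv (DirectSum.linearEquivFunOnFintype A ι fun l => (P l).X i).symm
  let _ : Module A B := Module.compHom B f
  refine AH.pi (fun l => (h l).2 (P l) (p l) (h1 l) (h2 l)) _
    (fun i => (piRight A A B fun l => (P l).X i).toAddEquiv) (fun i j _ x l => ?_)
    (fun i => (piE N i).toAddEquiv) (piE_d N) fun i x l => ?_
  · exact bc_ext (u := ((Pi.evalAddMonoidHom _ l).comp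
      (piRight A A B fun l => (P l).X j).toAddEquiv.toAddMonoidHom).comp
        ((bcx f (mpi P)).d i j).toAddMonoidHom)
      (v := ((bcx f (P l)).d i j).toAddMonoidHom.comp ((Pi.evalAddMonoidHom _ l).comp
        (piRight A A B fun l => (P l).X i).toAddEquiv.toAddMonoidHom)) (fun _ _ => rfl) x
  · exact bc_ext (u := ((Pi.evalAddMonoidHom _ l).comp
      (piE N i).toAddEquiv.toAddMonoidHom).comp ((bm _ (hs.sl.comp p')).f i))
      (v := ((bm _ ((h l).1.sl.comp (p l))).f i).comp ((Pi.evalAddMonoidHom _ l).comp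
        (piRight A A B fun l => (P l).X i).toAddEquiv.toAddMonoidHom)) (fun _ _ => rfl) x

end

end Vale.Agent.P286EG
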