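import Vale.Agent.P286.H527.Noeth
import Vale.Agent.P286.St.TD

/-!
# Complexes of modules: morphisms, and two statements on flat resolutions
-/

namespace Vale.Agent.P286EG

open Vale.Agent.P286

/-- A morphism of complexes of modules. -/
structure MHom {A : Type} [CommRing A] (P Q : MCx A) where
  f : ∀ i, P.X i →ₗ[A] Q.X i
  comm : ∀ i j, i + 1 = j → ∀ x, f j (P.d i j x) = Q.d i j (f i x)

/-- The morphism is a quasi-isomorphism. -/
def MHom.Qis {A : Type} [CommRing A] {P Q : MCx A} (u : MHom P Q) : Prop :=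
  ∀ i j k, i + 1 = j → j + 1 = k → St.HIso (P.d i j) (P.d j k) (Q.d i j) (Q.d j k) (u.f j)

/-- Exact complexes of flat modules over a smooth algebra stay exact after base change. -/
def KFLAT : Prop := ∀ (A : Type) [CommRing A] [Algebra ℂ A] [Algebra.Smooth ℂ A] (P : MCx A),
  (∀ i, Module.Flat A (P.X i)) → P.Acyclic → ∀ (N : Type) [AddCommGroup N] [Module A N],
    (P.tens N).Acyclic

/-- Natural flat resolutions. -/
def RES : Prop := ∀ (A : Type) [CommRing A] [Algebra ℂ A],
  ∃ (Q : MCx A → MCx A) (e : ∀ K, MHom (Q K) K) (m : ∀ K L, MHom K L → MHom (Q K) (Q L)),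
    (∀ K i, Module.Flat A ((Q K).X i)) ∧ (∀ K i j, i + 1 ≠ j → (Q K).d i j = 0) ∧
    (∀ K, (e K).Qis) ∧ ∀ K L u i x, (e L).f i ((m K L u).f i x) = u.f i ((e K).f i x)

end Vale.Agent.P286EG
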